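import Vale.Agent.P257.H314.Assemble
import Vale.Agent.P251.Z.CompA
import Vale.Agent.P251.S.Coprod
import Vale.Agent.P251.S.GrA

/-!
# P261, row (A): a Morava `K`-theory of height `n` kills the Smith-Toda towers of length `n + 1`

`acyclic_tower` : `K(n) ⊗ V(n) = 0`.
-/

open CategoryTheory MonoidalCategory Limits Pretriangulated MonObj

universe v u

set_option linter.unusedSectionVars false

namespace Vale.Agent.P261.H249

open Vale.Agent.P251 Vale.Agent.P251.T Vale.Agent.P251.M Vale.Agent.P251.S Vale.Agent.P251.F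
  Vale.Agent.P251.I
open Vale.Agent.P251.M.EvenSpheres
open Vale.Agent.P257.H314

section Mon

variable {T : Type u} [Category.{v} T] [MonoidalCategory T] [SymmetricCategory T]

/-- multiplication by a class of the ring -/
def mulA {S R : T} [MonObj R] (a : S ⟶ R) : S ⊗ R ⟶ R := (a ▷ R) ≫ μ[R]

/-- rearrangement `(X ⊗ Y) ⊗ V ≅ Y ⊗ (X ⊗ V)` -/
def rearr (X Y V : T) : (X ⊗ Y) ⊗ V ≅ Y ⊗ (X ⊗ V) :=
  whiskerRightIso (β_ X Y) V ≪≫ α_ Y X V

lemma rearr_nat {X X' : T} (f : X ⟶ X') (Y V : T) :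
    ((f ▷ Y) ▷ V) ≫ (rearr X' Y V).hom = (rearr X Y V).hom ≫ (Y ◁ (f ▷ V)) := by
  simp only [rearr, Iso.trans_hom, whiskerRightIso_hom]
  rw [← comp_whiskerRight_assoc, BraidedCategory.braiding_naturality_left,
    comp_whiskerRight_assoc, Category.assoc, associator_naturality_middle]

lemma gmul_map {E : EvenSpheres T} {A B : T} [MonObj A] [MonObj B] (φ : A ⟶ B) [IsMonHom φ]
    {m n q : ℤ} (h : m + n = q) (a : E.S m ⟶ A) (b : E.S n ⟶ A) :
    gmul h (a ≫ φ) (b ≫ φ) = gmul h a b ≫ φ := by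
  unfold gmul
  rw [ext_comp, Category.assoc, Category.assoc, IsMonHom.mul_hom]

/-- multiplication by `a` on a class which comes from the ring -/
lemma mulA_comp {E : EvenSpheres T} {R V : T} [MonObj R] (i : 𝟙_ T ⟶ V) {m n q : ℤ}
    (h : m + n = q) (a : E.S m ⟶ R) (b : E.S n ⟶ R) :
    (E.mu m n q h).inv ≫ (E.S m ◁ (b ≫ (ρ_ R).inv ≫ (R ◁ i))) ≫ (α_ (E.S m) R V).inv ≫
      (mulA a ▷ V) = gmul h a b ≫ (ρ_ R).inv ≫ (R ◁ i) := by
  have h1 : (E.S m ◁ ((ρ_ R).inv ≫ (R ◁ i))) ≫ (α_ (E.S m) R V).inv =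
      (ρ_ (E.S m ⊗ R)).inv ≫ ((E.S m ⊗ R) ◁ i) := by
    rw [whiskerLeft_comp, Category.assoc, associator_inv_naturality_right]
    simp
  have h2 : (ρ_ (E.S m ⊗ R)).inv ≫ ((E.S m ⊗ R) ◁ i) ≫ (mulA a ▷ V) =
      mulA a ≫ (ρ_ R).inv ≫ (R ◁ i) := by
    rw [whisker_exchange, rightUnitor_inv_naturality_assoc]
  rw [whiskerLeft_comp, Category.assoc, reassoc_of% h1, h2]
  unfold gmul EvenSpheres.ext mulA
  rw [tensorHom_def']
  simp only [Category.assoc]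

end Mon

section Cy

variable {T : Type u} [Category.{v} T] [Preadditive T] [HasZeroObject T]
    [HasShift T ℤ] [∀ n : ℤ, (shiftFunctor T n).Additive] [Pretriangulated T]
    [MonoidalCategory T] [SymmetricCategory T] [TensorTriangulated T] [HasCoproducts.{0} T]
    {D : I.MUData T} {p : ℕ} [Fact p.Prime]

theorem cyc_of_tow (hp2 : p ≠ 2) {h : ℕ} {V : T} {i : 𝟙_ T ⟶ V} (hV : STow D p h i) :
    Cyc D p h i := by
  induction hV with
  | one hC => exact cyc_modP D hp2 hC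
  | succ H x hx f hf j δ hΔ ih => exact ih.step rfl hx hf hΔ

end Cy

section Main

variable {T : Type u} [Category.{v} T] [Preadditive T] [HasZeroObject T]
    [HasShift T ℤ] [∀ n : ℤ, (shiftFunctor T n).Additive] [Pretriangulated T] [IsTriangulated T]
    [MonoidalCategory T] [SymmetricCategory T] [TensorTriangulated T] [MonoidalClosed T]
    [HasCoproducts.{0} T] [HasProducts.{0} T] [StableCat T]
    {D : I.MUData T} {p : ℕ} [Fact p.Prime]

theorem vel_eq (D : I.MUData T) (p n : ℕ) : D.vel p n = D.evw 0 _ (vw p n 0) ≫ amOne D.R := by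
  apply I.MUData.of_injective
  rw [← D.vel_spec p n]
  have h1 : vv p n D.law1 = D.ev 0 (MvPolynomial.C (Laz.v p n)) := by
    unfold I.MUData.law1
    rw [vv_map]
    rfl
  have h2 : HRing.of (stdEven T) (Am D.R (0 + 1)) ((p ^ n : ℤ) - 1) (D.evw 0 _ (vw p n 0)) =
      D.ev 0 (MvPolynomial.C (Laz.v p n)) := D.of_evw (vw p n 0)
  unfold I.MUData.law
  rw [vv_map, h1, ← h2, HRing.map_of]

/-- multiplication by `v_n` is zero on the homotopy of `MU ⊗ V` -/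
theorem mul_eq_zero {n : ℕ} {V : T} {i : 𝟙_ T ⟶ V} (H : Cyc D p (n + 1) i) {m q : ℤ}
    (h : ((p ^ n : ℤ) - 1) + m = q) (y : (stdEven T).S m ⟶ D.R ⊗ V) :
    ((stdEven T).mu _ m q h).inv ≫ ((stdEven T).S ((p ^ n : ℤ) - 1) ◁ y) ≫
      (α_ _ D.R V).inv ≫ (mulA (D.vel p n) ▷ V) = 0 := by
  obtain ⟨z, hz⟩ := H.surj 0 m (y ≫ ((λ_ D.R).inv ▷ V))
  have hy : y = (D.evw 0 m z ≫ amOne D.R) ≫ (ρ_ D.R).inv ≫ (D.R ◁ i) := by
    have h1 : y = (y ≫ ((λ_ D.R).inv ▷ V)) ≫ (amOne D.R ▷ V) := by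
      rw [Category.assoc, ← comp_whiskerRight]
      have : (λ_ D.R).inv ≫ amOne D.R = 𝟙 _ := Iso.inv_hom_id _
      rw [this, id_whiskerRight, Category.comp_id]
    have h2 := (redC i).naturality (amOne D.R)
    change amOne D.R ≫ (redC i).app _ = (redC i).app _ ≫ (amOne D.R ▷ V) at h2
    rw [h1, hz, Category.assoc, Category.assoc]
    have h3 : (redC i).app D.R = (ρ_ D.R).inv ≫ (D.R ◁ i) := rfl
    rw [← h3, h2]
  rw [hy, mulA_comp i h, vel_eq, gmul_map]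
  have hq : m + ((p ^ n : ℤ) - 1) = q := by rw [add_comm]; exact h
  have h4 : gmul h (D.evw 0 _ (vw p n 0)) (D.evw 0 m z) = D.evw 0 q (mulv p n 0 hq z) := by
    symm
    apply evw_mul D h (vw p n 0) z
    change z.1 * (vw p n 0).1 = _
    rw [mul_comm]
  have h2 := (redC i).naturality (amOne D.R)
  change amOne D.R ≫ (redC i).app _ = (redC i).app _ ≫ (amOne D.R ▷ V) at h2
  have h3 : (redC i).app D.R = (ρ_ D.R).inv ≫ (D.R ◁ i) := rfl
  have h5 : D.evw 0 q (mulv p n 0 hq z) ≫ (redC i).app (Am D.R (0 + 1)) = 0 := by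
    rw [H.ker]
    rw [mem_IC_succ_iff]
    exact ⟨0, Ideal.zero_mem _, z.1, by rw [zero_add]; rfl⟩
  rw [h4, ← h3, Category.assoc, h2, ← Category.assoc]
  have h6 : (D.evw 0 q (mulv p n 0 hq z)) ≫ (redC i).app (Am D.R 1) = 0 := h5
  rw [h6, zero_comp]

theorem ghost_mul {n : ℕ} {V : T} {i : 𝟙_ T ⟶ V} (H : Cyc D p (n + 1) i) :
    Ghost (mulA (D.vel p n) ▷ V) := by
  intro A hA f
  obtain ⟨k, ⟨e⟩⟩ := hA
  obtain ⟨w, rfl | rfl⟩ := Int.even_or_odd' k
  · -- even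
    have hN : ((p ^ n : ℤ) - 1) + (w - ((p ^ n : ℤ) - 1)) = w := by ring
    obtain ⟨y, hy⟩ := whiskerLeft_surj ((stdEven T).S ((p ^ n : ℤ) - 1))
      (((stdEven T).mu _ _ w hN).hom ≫ ((sI T w).hom ≫ e.inv ≫ f) ≫ (α_ _ _ _).hom)
    have h1 := mul_eq_zero H hN y
    rw [hy] at h1
    simp only [Category.assoc, Iso.inv_hom_id_assoc, Iso.hom_inv_id_assoc] at h1
    rw [← cancel_epi e.inv, ← cancel_epi (sI T w).hom, comp_zero, comp_zero]
    exact h1
  · -- odd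
    have h1 := H.odd 0 w (e.inv ≫ f ≫ (mulA (D.vel p n) ▷ V) ≫ ((λ_ D.R).inv ▷ V))
    rw [← cancel_epi e.inv, ← cancel_mono ((λ_ D.R).inv ▷ V), comp_zero, zero_comp]
    rw [Category.assoc, Category.assoc]
    exact h1

/-- tensoring a ghost with a sphere -/
theorem ghost_sphere {X Y : T} {q : X ⟶ Y} (hq : Ghost q) {Z : T} (hZ : IsSphere Z) :
    Ghost (Z ◁ q) := by
  obtain ⟨k, ⟨e⟩⟩ := hZ
  refine (hq.shift k).of_square ((whiskerRightIso e X) ≪≫ sphTensor k X).hom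
    ((whiskerRightIso e Y) ≪≫ sphTensor k Y).hom ?_
  simp only [Iso.trans_hom, whiskerRightIso_hom, Category.assoc]
  rw [whisker_exchange_assoc, sphTensor_naturality]

theorem isSphere_S (n : ℤ) : IsSphere ((stdEven T).S n) := ⟨2 * n, ⟨sI T n⟩⟩

theorem ghost_PS {X Y : T} {q : X ⟶ Y} (hq : Ghost q) : Ghost ((stdEven T).PS ◁ q) :=
  ghost_coprod q _ fun n => ghost_sphere hq (isSphere_S n)

theorem ghost_S_PS {X Y : T} {q : X ⟶ Y} (hq : Ghost q) (k : ℤ) :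
    Ghost (((stdEven T).S k ⊗ (stdEven T).PS) ◁ q) := by
  refine (ghost_sphere (ghost_PS hq) (isSphere_S k)).of_square (α_ _ _ _).hom (α_ _ _ _).hom ?_
  rw [associator_naturality_right]

/-- `v_n` on `P ⊗ V` is a ghost -/
theorem ghost_smul {n : ℕ} {V : T} {i : 𝟙_ T ⟶ V} (H : Cyc D p (n + 1) i) :
    Ghost ((ModStr.self D.P).smul (D.vs p n) ▷ V) := by
  have e : (ModStr.self D.P).smul (D.vs p n) = (λ_ (D.R ⊗ (stdEven T).PS)).inv ≫
      (((stdEven T).unitIso ((p ^ n : ℤ) - 1)).hom ▷ (D.R ⊗ (stdEven T).PS)) ≫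
      tensorμ ((stdEven T).S ((p ^ n : ℤ) - 1)) ((stdEven T).S (-((p ^ n : ℤ) - 1))) D.R
        (stdEven T).PS ≫
      (mulA (D.vel p n) ▷ ((stdEven T).S (-((p ^ n : ℤ) - 1)) ⊗ (stdEven T).PS)) ≫
      (D.R ◁ (((stdEven T).inPS (-((p ^ n : ℤ) - 1)) ▷ (stdEven T).PS) ≫ μ[(stdEven T).PS])) := by
    unfold ModStr.smul ModStr.self
    change (λ_ _).inv ≫ ((sharp (D.vel p n)) ▷ _) ≫ μ[D.R ⊗ (stdEven T).PS] = _
    rw [sharp_eq_unitIso, MonObj.tensorObj.mul_def, comp_whiskerRight, Category.assoc,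
      tensorμ_natural_left_assoc, tensorHom_comp_tensorHom, ← tensorHom_def]
    rfl
  rw [e]
  simp only [comp_whiskerRight]
  refine Ghost.comp_left ?_ _
  refine Ghost.comp_left ?_ _
  refine Ghost.comp_left ?_ _
  refine Ghost.comp_right ?_ _
  exact (ghost_S_PS (ghost_mul H) _).of_square (rearr _ _ V).hom (rearr _ _ V).hom
    (rearr_nat _ _ V)

theorem isCpt_sphere {A : T} (hA : IsSphere A) : Vale.Agent.P251.S.IsCpt A :=
  fun _ X f => compact_sum X hA f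

theorem isZero_Tl {n : ℕ} {V : T} {i : 𝟙_ T ⟶ V} (H : Cyc D p (n + 1) i)
    (Z : KosData D.P (p : ℤ) n (D.vs p)) : IsZero (Z.Tl ⊗ V) := by
  refine StableCat.generator _ fun k f => ?_
  obtain ⟨m, a, ha⟩ := (Z.isTel.tel.tensR V).exists_factor
    (isCpt_sphere (isSphere_one_shift k)) f
  have h1 := ghost_smul H _ (isSphere_one_shift k) a
  have h2 := (Z.isTel.tel.tensR V).w m
  rw [← ha, ← h2, ← Category.assoc]
  erw [h1]
  exact zero_comp

theorem isZero_K {n : ℕ} {V : T} {i : 𝟙_ T ⟶ V} (H : Cyc D p (n + 1) i)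
    (Z : KosData D.P (p : ℤ) n (D.vs p)) : Acyclic Z.K V := by
  have h1 := isZero_Tl H Z
  have h2 : IsZero (Z.kos n ⊗ (Z.Tl ⊗ V)) := by
    rw [IsZero.iff_id_eq_zero, ← MonoidalCategory.whiskerLeft_id,
      (IsZero.iff_id_eq_zero _).1 h1, MonoidalPreadditive.whiskerLeft_zero]
  exact IsZero.of_iso h2 (α_ (Z.kos n) Z.Tl V)

/-- **Row (A)** -/
theorem acyclic_tower {F : I.SpaceFunctor T} {e : F.S.obj CCF ≅ (stdEven T).L} (H : MUUniv e D)
    (hp2 : p ≠ 2) {n : ℕ} (hn : 1 ≤ n) {V : T} {i : 𝟙_ T ⟶ V} (hV : STow D p (n + 1) i)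
    {K : T} [MonObj K] [IsCommMonObj K] (o : Z.Oriented F K) (hK : Z.IsMoravaPos F p n o) :
    IsZero (K ⊗ V) := by
  obtain ⟨Z'⟩ := exists_kosData D.P (p : ℤ) n (D.vs p)
  exact Z.acyclic_of_kos H hn o hK Z' (isZero_K (cyc_of_tow hp2 hV) Z')

end Main

end Vale.Agent.P261.H249
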